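import Vale.Agent.P262.Steinitz

namespace Vale.Agent.Results.P262.SqrtD

open Vale.Agent.P262

/-- Both `σ(d)` and the Euclidean Steinitz constant `S₂(d)` have order of growth `√d`. -/
theorem result : ∃ c C : ℝ, 0 < c ∧ ∀ d : ℕ, 1 ≤ d →
    (ENNReal.ofReal (c * √(d : ℝ)) ≤ sigma d ∧ sigma d ≤ ENNReal.ofReal (C * √(d : ℝ))) ∧
    (ENNReal.ofReal (c * √(d : ℝ)) ≤ steinitz d ∧ steinitz d ≤ ENNReal.ofReal (C * √(d : ℝ))) := by
  refine ⟨1 / 3, 10 ^ 11, by norm_num, fun d hd => ⟨⟨?_, ?_⟩, steinitz_lower hd, ?_⟩⟩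
  · refine le_trans (ENNReal.ofReal_le_ofReal ?_) (sigma_lower hd)
    linarith [Real.sqrt_nonneg (d : ℝ)]
  · refine iSup₂_le fun N _ => iSup₂_le fun v hv => ?_
    obtain ⟨ε, h1, h2⟩ := signing_fin v hv
    exact iInf₂_le_of_le ε h1 h2.peak_le
  · refine iSup₂_le fun N v => iSup₂_le fun hv h0 => ?_
    obtain ⟨π, h⟩ := steinitz_fin v hv h0
    exact iInf_le_of_le π h.peak_le

end Vale.Agent.Results.P262.SqrtD
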